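import Mathlib

/-!
# P050: gluing lemma for log-supermodular functions on products of chains
-/

namespace Vale.P050.TP2

open Finset Real

/-- Log-supermodularity of a function of two lattice variables. -/
def LSM2 {α β : Type*} [Lattice α] [Lattice β] (G : α → β → ℝ) : Prop :=
  ∀ a a' b b', G a b * G a' b' ≤ G (a ⊓ a') (b ⊓ b') * G (a ⊔ a') (b ⊔ b')

/-- Log-supermodularity of a function on a lattice. -/
def LSM {α : Type*} [Lattice α] (F : α → ℝ) : Prop :=
  ∀ a b, F a * F b ≤ F (a ⊓ b) * F (a ⊔ b)

lemma LSM2.sumOut {α β : Type*} [Lattice α] [DistribLattice β] [Fintype β] {G : α → β → ℝ}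
    (hG0 : ∀ a b, 0 ≤ G a b) (hG : LSM2 G) : LSM (fun a => ∑ b, G a b) := by
  classical
  intro a a'
  have h := four_functions_theorem (G a) (G a') (G (a ⊓ a')) (G (a ⊔ a'))
    (fun b => hG0 _ b) (fun b => hG0 _ b) (fun b => hG0 _ b) (fun b => hG0 _ b)
    (fun b b' => hG a a' b b') (univ : Finset β) (univ : Finset β)
  refine h.trans ?_
  refine mul_le_mul ?_ ?_ (sum_nonneg fun b _ => hG0 _ b) (sum_nonneg fun b _ => hG0 _ b)
  · exact sum_le_sum_of_subset_of_nonneg (subset_univ _) (fun b _ _ => hG0 _ b)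
  · exact sum_le_sum_of_subset_of_nonneg (subset_univ _) (fun b _ _ => hG0 _ b)

lemma gibbs {σ : Type*} [Fintype σ] (p w : σ → ℝ) (hp : ∀ s, 0 < p s) (hp1 : ∑ s, p s = 1)
    (hw : ∀ s, 0 < w s) : ∑ s, p s * (log (w s) - log (p s)) ≤ log (∑ s, w s) := by
  have : Nonempty σ := by
    by_contra hne
    rw [not_nonempty_iff] at hne
    simp at hp1
  have hS : 0 < ∑ s, w s := sum_pos (fun s _ => hw s) univ_nonempty
  have key : ∀ s, p s * (log (w s) - log (p s) - log (∑ r, w r))
      ≤ w s / (∑ r, w r) - p s := by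
    intro s
    have hx : 0 < w s / (∑ r, w r) / p s := div_pos (div_pos (hw s) hS) (hp s)
    have h := log_le_sub_one_of_pos hx
    rw [log_div (div_pos (hw s) hS).ne' (hp s).ne', log_div (hw s).ne' hS.ne'] at h
    have h2 := mul_le_mul_of_nonneg_left h (hp s).le
    have h3 : p s * (w s / (∑ r, w r) / p s - 1) = w s / (∑ r, w r) - p s := by
      field_simp [(hp s).ne']
    nlinarith [h2, h3]
  have := sum_le_sum (s := univ) (fun s _ => key s)
  simp only [mul_sub, sum_sub_distrib, ← sum_mul, hp1, ← sum_div, one_mul, div_self hS.ne'] at this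
  simp only [mul_sub, sum_sub_distrib]
  linarith

/-- Telescoping potential of a matrix on a chain. -/
noncomputable def potential (m : ℕ → ℕ → ℝ) : ℕ → ℝ
  | 0 => 0
  | n + 1 => potential m n + (m n (n + 1) - m (n + 1) n)

lemma potential_le (m : ℕ → ℕ → ℝ)
    (hm : ∀ a b c d, m a b + m c d ≤ m (min a c) (min b d) + m (max a c) (max b d))
    (s t : ℕ) (hst : s ≤ t) :
    2 * m s t + potential m s - potential m t ≤ m s s + m t t := by
  induction t, hst using Nat.le_induction with
  | base => linarith
  | succ t hst ih =>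
    have h1 := hm s (t + 1) t t
    have h2 := hm s (t + 1) (t + 1) t
    rw [min_eq_left hst, min_eq_right (Nat.le_succ t), max_eq_right hst,
      max_eq_left (Nat.le_succ t)] at h1
    rw [min_eq_left (hst.trans (Nat.le_succ t)), min_eq_right (Nat.le_succ t),
      max_eq_right (hst.trans (Nat.le_succ t)), max_eq_left (Nat.le_succ t)] at h2
    rw [potential]
    linarith

lemma potential_swap (m : ℕ → ℕ → ℝ) (n : ℕ) :
    potential (fun a b => m b a) n = - potential m n := by
  induction n with
  | zero => simp [potential]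
  | succ n ih => rw [potential, potential, ih]; ring

lemma potential_le' (m : ℕ → ℕ → ℝ)
    (hm : ∀ a b c d, m a b + m c d ≤ m (min a c) (min b d) + m (max a c) (max b d))
    (s t : ℕ) : 2 * m s t + potential m s - potential m t ≤ m s s + m t t := by
  rcases le_total s t with h | h
  · exact potential_le m hm s t h
  · have := potential_le (fun a b => m b a) (fun a b c d => hm b a d c) t s h
    simp only [potential_swap] at this
    linarith

/-- Key two-variable inequality: a log-supermodular square matrix on a chain can be tilted so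
that its total is controlled by its trace. -/
lemma pair {k : ℕ} (μ p : Fin (k + 1) → ℝ) (M : Fin (k + 1) → Fin (k + 1) → ℝ)
    (hμ : ∀ s, 0 < μ s) (hμ1 : ∑ s, μ s = 1) (hp : ∀ s, 0 < p s) (hp1 : ∑ s, p s = 1)
    (hM : ∀ s t, 0 < M s t) (hM2 : LSM2 M) :
    ∃ a b : Fin (k + 1) → ℝ, (∀ s, 0 < a s) ∧ (∀ s, 0 < b s) ∧
      ∑ s, ∑ t, μ s * μ t * a s * b t * M s t
        ≤ exp (∑ s, p s * (log (a s) + log (b s))) * ∑ s, μ s * M s s := by
  let c : ℕ → Fin (k + 1) := fun n => ⟨min n k, by omega⟩
  have hc : ∀ s : Fin (k + 1), c s.val = s := fun s => Fin.ext (by simp only [c]; omega)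
  let m : ℕ → ℕ → ℝ := fun a b => log (M (c a) (c b))
  have cmin : ∀ a b, c (min a b) = c a ⊓ c b := by
    intro a b
    rcases le_total a b with h | h
    · have : c a ≤ c b := Fin.mk_le_mk.2 (min_le_min_right k h)
      rw [min_eq_left h, inf_eq_left.2 this]
    · have : c b ≤ c a := Fin.mk_le_mk.2 (min_le_min_right k h)
      rw [min_eq_right h, inf_eq_right.2 this]
  have cmax : ∀ a b, c (max a b) = c a ⊔ c b := by
    intro a b
    rcases le_total a b with h | h
    · have : c a ≤ c b := Fin.mk_le_mk.2 (min_le_min_right k h)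
      rw [max_eq_right h, sup_eq_right.2 this]
    · have : c b ≤ c a := Fin.mk_le_mk.2 (min_le_min_right k h)
      rw [max_eq_left h, sup_eq_left.2 this]
  have hm : ∀ a b a' b', m a b + m a' b' ≤ m (min a a') (min b b') + m (max a a') (max b b') := by
    intro a b a' b'
    simp only [m, cmin, cmax]
    rw [← log_mul (hM _ _).ne' (hM _ _).ne', ← log_mul (hM _ _).ne' (hM _ _).ne']
    exact log_le_log (mul_pos (hM _ _) (hM _ _)) (hM2 _ _ _ _)
  let R : Fin (k + 1) → ℝ := fun s => potential m s.val
  have hR : ∀ s t, 2 * log (M s t) + R s - R t ≤ log (M s s) + log (M t t) := by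
    intro s t
    have := potential_le' m hm s.val t.val
    simpa only [m, hc] using this
  let X : Fin (k + 1) → ℝ := fun s => 2 * log (p s) - 2 * log (μ s) - log (M s s)
  refine ⟨fun s => exp ((X s + R s) / 2), fun s => exp ((X s - R s) / 2),
    fun s => exp_pos _, fun s => exp_pos _, ?_⟩
  have hL : ∑ s, ∑ t, μ s * μ t * exp ((X s + R s) / 2) * exp ((X t - R t) / 2) * M s t ≤ 1 := by
    have h1 : ∀ s t, μ s * μ t * exp ((X s + R s) / 2) * exp ((X t - R t) / 2) * M s t
        ≤ p s * p t := by
      intro s t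
      rw [← exp_log (hμ s), ← exp_log (hμ t), ← exp_log (hM s t), ← exp_log (hp s),
        ← exp_log (hp t), ← exp_add, ← exp_add, ← exp_add, ← exp_add, ← exp_add]
      apply exp_le_exp.2
      have := hR s t
      simp only [X]
      linarith
    calc _ ≤ ∑ s, ∑ t, p s * p t := sum_le_sum fun s _ => sum_le_sum fun t _ => h1 s t
      _ = 1 := by simp only [← mul_sum, hp1, mul_one]
  refine hL.trans ?_
  have hT : 0 < ∑ s, μ s * M s s :=
    sum_pos (fun s _ => mul_pos (hμ s) (hM s s)) univ_nonempty
  rw [← exp_log hT, ← exp_add]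
  apply one_le_exp
  have g1 := gibbs p (fun s => μ s * M s s) hp hp1 (fun s => mul_pos (hμ s) (hM s s))
  have g2 := gibbs p μ hp hp1 hμ
  rw [hμ1, log_one] at g2
  have e1 : ∑ s, p s * (log (exp ((X s + R s) / 2)) + log (exp ((X s - R s) / 2)))
      = ∑ s, p s * X s := by
    refine sum_congr rfl fun s _ => ?_
    rw [log_exp, log_exp]; ring
  have e2 : ∑ s, p s * X s = - (∑ s, p s * (log (μ s * M s s) - log (p s)))
      - ∑ s, p s * (log (μ s) - log (p s)) := by
    rw [← sum_neg_distrib, ← sum_sub_distrib]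
    refine sum_congr rfl fun s _ => ?_
    rw [log_mul (hμ s).ne' (hM s s).ne']
    simp only [X]; ring
  rw [e1, e2]
  linarith

end Vale.P050.TP2
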