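import Mathlib
import Vale.Agent.P050.TP2.Basic

/-!
# P050: merging coordinates of a log-supermodular function on a power of a chain
-/

namespace Vale.P050.TP2

open Finset Real

variable {κ ι : Type} [Fintype κ] [Fintype ι]

lemma prod_split [DecidableEq κ] (j : κ) (f : κ → ℝ) :
    ∏ i, f i = f j * ∏ i : {i // i ≠ j}, f i.val := by
  rw [← Equiv.prod_comp (Equiv.optionSubtypeNe j) f, Fintype.prod_option]
  simp

lemma sum_split [DecidableEq κ] (j : κ) (f : κ → ℝ) :
    ∑ i, f i = f j + ∑ i : {i // i ≠ j}, f i.val := by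
  rw [← Equiv.sum_comp (Equiv.optionSubtypeNe j) f, Fintype.sum_option]
  simp

lemma injective_case [DecidableEq κ] [DecidableEq ι] {σ : Type} [Fintype σ] [DecidableEq σ]
    (μ : σ → ℝ) (hμ1 : ∑ s, μ s = 1) (φ : κ → ι) (hφ : Function.Injective φ)
    (F : (κ → σ) → ℝ) :
    ∑ z : ι → σ, (∏ i, μ (z i)) * F (z ∘ φ) = ∑ x : κ → σ, (∏ j, μ (x j)) * F x := by
  classical
  let e1 := Equiv.piEquivPiSubtypeProd (fun i => i ∈ Set.range φ) (fun _ => σ)
  let e2 : (Set.range φ → σ) ≃ (κ → σ) :=
    Equiv.arrowCongr (Equiv.ofInjective φ hφ).symm (Equiv.refl σ)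
  let e : (ι → σ) ≃ (κ → σ) × ({i // i ∉ Set.range φ} → σ) :=
    e1.trans (Equiv.prodCongr e2 (Equiv.refl _))
  have hz : ∀ z : ι → σ, (∏ i, μ (z i)) * F (z ∘ φ)
      = ((∏ j, μ ((e z).1 j)) * F (e z).1) * ∏ i, μ ((e z).2 i) := by
    intro z
    have h1 : (e z).1 = z ∘ φ := by
      funext j; simp [e, e1, e2, Equiv.piEquivPiSubtypeProd, Equiv.arrowCongr]
    have h2 : ∀ i, (e z).2 i = z i.val := fun i => rfl
    rw [h1]
    have h3 : ∏ i, μ (z i) = (∏ i : Set.range φ, μ (z i.val))
        * ∏ i : {i // i ∉ Set.range φ}, μ (z i.val) :=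
      ((Fintype.prod_subtype_mul_prod_subtype (fun i => i ∈ Set.range φ) (fun i => μ (z i))).symm).trans
        (by congr 1; congr 1; exact eq_univ_of_forall (fun _ => by simp))
    have h4 : (∏ i : Set.range φ, μ (z i.val)) = ∏ j, μ (z (φ j)) :=
      (Fintype.prod_equiv (Equiv.ofInjective φ hφ) (fun j => μ (z (φ j))) (fun i => μ (z i.val))
        (fun j => by simp)).symm
    simp only [h2, h3, h4, Function.comp]
    ring
  rw [Fintype.sum_congr _ _ hz, Equiv.sum_comp e
    (fun q => ((∏ j, μ (q.1 j)) * F q.1) * ∏ i, μ (q.2 i)), Fintype.sum_prod_type]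
  refine sum_congr rfl fun x _ => ?_
  simp only
  rw [← mul_sum, ← Fintype.prod_sum (fun _ : {i // i ∉ Set.range φ} => μ)]
  simp [hμ1]

theorem merge {k : ℕ} (μ p : Fin (k + 1) → ℝ) (hμ : ∀ s, 0 < μ s) (hμ1 : ∑ s, μ s = 1)
    (hp : ∀ s, 0 < p s) (hp1 : ∑ s, p s = 1) :
    ∀ (n : ℕ) {κ ι : Type} [Fintype κ] [Fintype ι] [DecidableEq κ] [DecidableEq ι],
      Fintype.card κ = n → ∀ (φ : κ → ι) (F : (κ → Fin (k + 1)) → ℝ), (∀ x, 0 < F x) → LSM F →
      ∃ u : κ → Fin (k + 1) → ℝ, (∀ j s, 0 < u j s) ∧
        ∑ x : κ → Fin (k + 1), F x * ∏ j, (μ (x j) * u j (x j))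
          ≤ exp (∑ j, ∑ s, p s * log (u j s)) *
            ∑ z : ι → Fin (k + 1), (∏ i, μ (z i)) * F (z ∘ φ) := by
  intro n
  induction n using Nat.strong_induction_on with
  | _ n ih =>
    intro κ ι _ _ _ _ hn φ F hF hF2
    by_cases hφ : Function.Injective φ
    · refine ⟨fun _ _ => 1, fun _ _ => one_pos, ?_⟩
      simp only [log_one, mul_zero, sum_const_zero, exp_zero, one_mul, mul_one]
      rw [injective_case μ hμ1 φ hφ F]
      exact le_of_eq (sum_congr rfl fun x _ => mul_comm _ _)
    rw [Function.not_injective_iff] at hφ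
    obtain ⟨j, j0, hjj, hne⟩ := hφ
    let j0' : {i // i ≠ j} := ⟨j0, Ne.symm hne⟩
    let e := Equiv.funSplitAt j (Fin (k + 1))
    let ins : Fin (k + 1) → ({i // i ≠ j} → Fin (k + 1)) → κ → Fin (k + 1) :=
      fun s r i => if h : i = j then s else r ⟨i, h⟩
    have hins : ∀ s r, e.symm (s, r) = ins s r := by
      intro s r; funext i
      by_cases h : i = j
      · subst h; simp [e, ins, Equiv.funSplitAt, Equiv.piSplitAt]
      · simp [e, ins, Equiv.funSplitAt, Equiv.piSplitAt, h]
    have ins_inf : ∀ s s' r r', ins s r ⊓ ins s' r' = ins (s ⊓ s') (r ⊓ r') := by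
      intro s s' r r'; funext i
      by_cases h : i = j <;> simp [ins, h]
    have ins_sup : ∀ s s' r r', ins s r ⊔ ins s' r' = ins (s ⊔ s') (r ⊔ r') := by
      intro s s' r r'; funext i
      by_cases h : i = j <;> simp [ins, h]
    let F' : ({i // i ≠ j} → Fin (k + 1)) → ℝ := fun r => F (ins (r j0') r)
    have hF'2 : LSM F' := by
      intro r r'
      have := hF2 (ins (r j0') r) (ins (r' j0') r')
      rw [ins_inf, ins_sup] at this
      simpa [F'] using this
    have hlt : Fintype.card {i // i ≠ j} < n := by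
      rw [← hn]
      exact Fintype.card_subtype_lt (x := j) (by simp)
    obtain ⟨u', hu', hb'⟩ := ih _ hlt (κ := {i // i ≠ j}) (ι := ι) rfl (fun i => φ i.val) F'
      (fun r => hF _) hF'2
    have hcomp : ∀ z : ι → Fin (k + 1), F' (z ∘ fun i => φ i.val) = F (z ∘ φ) := by
      intro z
      refine congrArg F (funext fun i => ?_)
      by_cases h : i = j
      · subst h; simp [ins, j0', Function.comp, hjj]
      · simp [ins, Function.comp, h]
    simp only [hcomp] at hb'
    let P : ({i // i ≠ j} → Fin (k + 1)) → ℝ := fun r => ∏ i, (μ (r i) * u' i (r i))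
    have hP : ∀ r, 0 < P r := fun r => prod_pos fun i _ => mul_pos (hμ _) (hu' i _)
    have hPmod : ∀ r r', P r * P r' = P (r ⊓ r') * P (r ⊔ r') := by
      intro r r'
      simp only [P, ← prod_mul_distrib]
      refine prod_congr rfl fun i _ => ?_
      rcases le_total (r i) (r' i) with h | h <;>
        simp [Pi.inf_apply, Pi.sup_apply, inf_of_le_left, inf_of_le_right, sup_of_le_left,
          sup_of_le_right, h, mul_comm, mul_left_comm, mul_assoc]
    let G : Fin (k + 1) × Fin (k + 1) → ({i // i ≠ j} → Fin (k + 1)) → ℝ :=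
      fun q r => if r j0' = q.2 then F (ins q.1 r) * P r / μ q.2 else 0
    have hG0 : ∀ q r, 0 ≤ G q r := by
      intro q r; simp only [G]; split_ifs
      · exact (div_pos (mul_pos (hF _) (hP r)) (hμ _)).le
      · exact le_rfl
    have hG : LSM2 G := by
      intro q q' r r'
      by_cases h : r j0' = q.2 ∧ r' j0' = q'.2
      · simp only [G, h.1, h.2, Pi.inf_apply, Pi.sup_apply, Prod.fst_inf, Prod.snd_inf,
          Prod.fst_sup, Prod.snd_sup, if_true]
        rw [div_mul_div_comm, div_mul_div_comm]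
        have hm : μ q.2 * μ q'.2 = μ (q.2 ⊓ q'.2) * μ (q.2 ⊔ q'.2) := by
          rcases le_total q.2 q'.2 with hh | hh <;>
            simp [inf_of_le_left, inf_of_le_right, sup_of_le_left, sup_of_le_right, hh, mul_comm]
        rw [hm]
        refine div_le_div_of_nonneg_right ?_ (mul_pos (hμ _) (hμ _)).le
        have h2 := hF2 (ins q.1 r) (ins q'.1 r')
        rw [ins_inf, ins_sup] at h2
        calc F (ins q.1 r) * P r * (F (ins q'.1 r') * P r')
            = F (ins q.1 r) * F (ins q'.1 r') * (P r * P r') := by ring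
          _ ≤ F (ins (q.1 ⊓ q'.1) (r ⊓ r')) * F (ins (q.1 ⊔ q'.1) (r ⊔ r'))
              * (P r * P r') := mul_le_mul_of_nonneg_right h2 (mul_pos (hP r) (hP r')).le
          _ = _ := by rw [hPmod]; ring
      · have : G q r * G q' r' = 0 := by
          rcases not_and_or.1 h with h' | h' <;> simp [G, h']
        rw [this]
        exact mul_nonneg (hG0 _ _) (hG0 _ _)
    let M : Fin (k + 1) → Fin (k + 1) → ℝ := fun s t => ∑ r, G (s, t) r
    have hM2 : LSM2 M := by
      intro a a' b b'
      exact LSM2.sumOut hG0 hG (a, b) (a', b')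
    have hM : ∀ s t, 0 < M s t := by
      intro s t
      refine sum_pos' (fun r _ => hG0 _ r) ⟨fun _ => t, mem_univ _, ?_⟩
      simp only [G, if_true]
      exact div_pos (mul_pos (hF _) (hP _)) (hμ _)
    obtain ⟨a, b, ha, hb, hab⟩ := pair μ p M hμ hμ1 hp hp1 hM hM2
    have hdiag : ∑ s, μ s * M s s = ∑ r, F' r * P r := by
      simp only [M, mul_sum]
      rw [sum_comm]
      refine sum_congr rfl fun r _ => ?_
      simp only [G, mul_ite, mul_zero, sum_ite_eq, mem_univ, if_true, F']
      field_simp [(hμ (r j0')).ne']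
    have hoff : ∑ s, ∑ t, μ s * μ t * a s * b t * M s t
        = ∑ s, ∑ r, (μ s * a s) * (F (ins s r) * (P r * b (r j0'))) := by
      refine sum_congr rfl fun s _ => ?_
      simp only [M, mul_sum]
      rw [sum_comm]
      refine sum_congr rfl fun r _ => ?_
      simp only [G, mul_ite, mul_zero, sum_ite_eq, mem_univ, if_true]
      field_simp [(hμ (r j0')).ne']
    let u : κ → Fin (k + 1) → ℝ := fun i s =>
      if h : i = j then a s else (if i = j0 then b s else 1) * u' ⟨i, h⟩ s
    have huj : u j = a := by funext s; simp [u]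
    have hui : ∀ i : {i // i ≠ j}, u i.val = fun s => (if i = j0' then b s else 1) * u' i s := by
      intro i; funext s
      simp [u, i.2, j0', Subtype.ext_iff]
    refine ⟨u, fun i s => ?_, ?_⟩
    · simp only [u]; split_ifs with h h'
      · exact ha s
      · exact mul_pos (hb s) (hu' _ s)
      · exact mul_pos one_pos (hu' _ s)
    have hprod : ∀ s r, ∏ i, (μ (ins s r i) * u i (ins s r i))
        = (μ s * a s) * (P r * b (r j0')) := by
      intro s r
      rw [prod_split j, huj]
      have e1 : ins s r j = s := by simp [ins]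
      have e2 : ∀ i : {i // i ≠ j}, ins s r i.val = r i := fun i => by simp [ins, i.2]
      simp only [e1, e2, hui]
      congr 1
      have e3 : b (r j0') = ∏ i, (if i = j0' then b (r i) else 1) := by simp
      rw [e3]
      simp only [P, ← prod_mul_distrib]
      exact prod_congr rfl fun i _ => by ring
    have hlhs : ∑ x, F x * ∏ i, (μ (x i) * u i (x i))
        = ∑ s, ∑ t, μ s * μ t * a s * b t * M s t := by
      rw [hoff, ← Equiv.sum_comp e.symm, Fintype.sum_prod_type]
      refine sum_congr rfl fun s _ => sum_congr rfl fun r _ => ?_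
      rw [hins, hprod]; ring
    have hexp : ∑ i, ∑ s, p s * log (u i s)
        = ∑ s, p s * (log (a s) + log (b s)) + ∑ i, ∑ s, p s * log (u' i s) := by
      rw [sum_split j, huj]
      have : ∀ i : {i // i ≠ j}, ∑ s, p s * log (u i.val s)
          = (if i = j0' then ∑ s, p s * log (b s) else 0) + ∑ s, p s * log (u' i s) := by
        intro i
        rw [hui i]
        by_cases h : i = j0'
        · simp only [h, if_true, ← sum_add_distrib]
          exact sum_congr rfl fun s _ => by rw [log_mul (hb s).ne' (hu' _ s).ne']; ring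
        · simp [h]
      simp only [this, sum_add_distrib, sum_ite_eq', mem_univ, if_true, mul_add]
      ring
    rw [hlhs, hexp, exp_add, mul_assoc]
    refine hab.trans (mul_le_mul_of_nonneg_left ?_ (exp_pos _).le)
    rw [hdiag]
    exact hb'

end Vale.P050.TP2
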