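import Mathlib
import Vale.Agent.P050.TP2.Merge

/-!
# P050: the Sidorenko inequality for positive totally positive (order 2) weighted targets
-/

namespace Vale.P050.TP2

open Finset Real

/-- Weighted homomorphism sum of a bipartite multigraph given by endpoint maps. -/
noncomputable def homSum {A B E S T : Type} [Fintype A] [Fintype B] [Fintype E] [Fintype S]
    [Fintype T] [DecidableEq A] [DecidableEq B] (a : E → A) (b : E → B)
    (μ : S → ℝ) (ν : T → ℝ) (W : S → T → ℝ) : ℝ :=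
  ∑ x : A → S, ∑ y : B → T, (∏ i, μ (x i)) * (∏ j, ν (y j)) * ∏ e, W (x (a e)) (y (b e))

lemma mul_modular {S : Type} [LinearOrder S] (μ : S → ℝ) (s s' : S) :
    μ s * μ s' = μ (s ⊓ s') * μ (s ⊔ s') := by
  rcases le_total s s' with h | h <;>
    simp [inf_of_le_left, inf_of_le_right, sup_of_le_left, sup_of_le_right, h, mul_comm]

lemma prod_modular {I S : Type} [Fintype I] [LinearOrder S] (μ : I → S → ℝ) (x x' : I → S) :
    (∏ i, μ i (x i)) * (∏ i, μ i (x' i))
      = (∏ i, μ i ((x ⊓ x') i)) * ∏ i, μ i ((x ⊔ x') i) := by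
  simp only [← prod_mul_distrib]
  exact prod_congr rfl fun i _ => mul_modular (μ i) _ _

theorem positive {A B E : Type} [Fintype A] [Fintype B] [Fintype E] [DecidableEq A]
    [DecidableEq B] [DecidableEq E] {k l : ℕ} (a : E → A) (b : E → B)
    (μ : Fin (k + 1) → ℝ) (ν : Fin (l + 1) → ℝ) (W : Fin (k + 1) → Fin (l + 1) → ℝ)
    (hμ : ∀ s, 0 < μ s) (hμ1 : ∑ s, μ s = 1) (hν : ∀ t, 0 < ν t) (hν1 : ∑ t, ν t = 1)
    (hW : ∀ s t, 0 < W s t) (hW2 : LSM2 W) :
    (∑ s, ∑ t, μ s * ν t * W s t) ^ Fintype.card E ≤ homSum a b μ ν W := by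
  classical
  set P := ∑ s, ∑ t, μ s * ν t * W s t with hPdef
  have hP : 0 < P := sum_pos (fun s _ => sum_pos
    (fun t _ => mul_pos (mul_pos (hμ s) (hν t)) (hW s t)) univ_nonempty) univ_nonempty
  let τ : Fin (k + 1) → Fin (l + 1) → ℝ := fun s t => μ s * ν t * W s t / P
  have hτ : ∀ s t, 0 < τ s t := fun s t =>
    div_pos (mul_pos (mul_pos (hμ s) (hν t)) (hW s t)) hP
  let p : Fin (k + 1) → ℝ := fun s => ∑ t, τ s t
  let q : Fin (l + 1) → ℝ := fun t => ∑ s, τ s t
  have hp : ∀ s, 0 < p s := fun s => sum_pos (fun t _ => hτ s t) univ_nonempty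
  have hq : ∀ t, 0 < q t := fun t => sum_pos (fun s _ => hτ s t) univ_nonempty
  have hτ1 : ∑ s, ∑ t, τ s t = 1 := by
    simp only [τ, ← sum_div]
    exact div_self hP.ne'
  have hq1 : ∑ t, q t = 1 := by
    simp only [q]; rw [sum_comm]; exact hτ1
  -- stage one
  let G1 : (E → Fin (k + 1)) → (B → Fin (l + 1)) → ℝ :=
    fun x y => (∏ j, ν (y j)) * ∏ e, W (x e) (y (b e))
  have hG1 : ∀ x y, 0 < G1 x y := fun x y =>
    mul_pos (prod_pos fun j _ => hν _) (prod_pos fun e _ => hW _ _)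
  have hG1m : LSM2 G1 := by
    intro x x' y y'
    simp only [G1]
    rw [mul_mul_mul_comm, mul_mul_mul_comm (∏ j, ν ((y ⊓ y') j)),
      prod_modular (fun _ => ν) y y']
    refine mul_le_mul_of_nonneg_left ?_
      (mul_pos (prod_pos fun j _ => hν _) (prod_pos fun j _ => hν _)).le
    simp only [← prod_mul_distrib]
    exact Finset.prod_le_prod (fun e _ => (mul_pos (hW _ _) (hW _ _)).le) (fun e _ => hW2 _ _ _ _)
  obtain ⟨u, hu, hbu⟩ := merge μ p hμ hμ1 hp hτ1 _ rfl a (fun x => ∑ y, G1 x y)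
    (fun x => sum_pos (fun y _ => hG1 x y) univ_nonempty)
    (LSM2.sumOut (fun x y => (hG1 x y).le) hG1m)
  -- stage two
  let G2 : (E → Fin (l + 1)) → (E → Fin (k + 1)) → ℝ :=
    fun y x => (∏ e, μ (x e) * u e (x e)) * ∏ e, W (x e) (y e)
  have hG2 : ∀ y x, 0 < G2 y x := fun y x =>
    mul_pos (prod_pos fun e _ => mul_pos (hμ _) (hu e _)) (prod_pos fun e _ => hW _ _)
  have hG2m : LSM2 G2 := by
    intro y y' x x'
    simp only [G2]
    rw [mul_mul_mul_comm, mul_mul_mul_comm (∏ e, μ ((x ⊓ x') e) * u e ((x ⊓ x') e)),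
      prod_modular (fun e s => μ s * u e s) x x']
    refine mul_le_mul_of_nonneg_left ?_
      (mul_pos (prod_pos fun e _ => mul_pos (hμ _) (hu e _))
        (prod_pos fun e _ => mul_pos (hμ _) (hu e _))).le
    simp only [← prod_mul_distrib]
    exact Finset.prod_le_prod (fun e _ => (mul_pos (hW _ _) (hW _ _)).le) (fun e _ => hW2 _ _ _ _)
  obtain ⟨v, hv, hbv⟩ := merge ν q hν hν1 hq hq1 _ rfl b (fun y => ∑ x, G2 y x)
    (fun y => sum_pos (fun x _ => hG2 y x) univ_nonempty)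
    (LSM2.sumOut (fun y x => (hG2 y x).le) hG2m)
  -- per-edge Jensen
  have hedge : ∀ e, P * exp (∑ s, p s * log (u e s) + ∑ t, q t * log (v e t))
      ≤ ∑ z : Fin (k + 1) × Fin (l + 1),
          μ z.1 * u e z.1 * W z.1 z.2 * (ν z.2 * v e z.2) := by
    intro e
    have hpos : ∀ z : Fin (k + 1) × Fin (l + 1),
        0 < μ z.1 * u e z.1 * W z.1 z.2 * (ν z.2 * v e z.2) := fun z =>
      mul_pos (mul_pos (mul_pos (hμ _) (hu e _)) (hW _ _)) (mul_pos (hν _) (hv e _))
    have hz1 : ∑ z : Fin (k + 1) × Fin (l + 1), τ z.1 z.2 = 1 := by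
      rw [Fintype.sum_prod_type]; exact hτ1
    have hg := gibbs (fun z : Fin (k + 1) × Fin (l + 1) => τ z.1 z.2) _ (fun z => hτ _ _) hz1 hpos
    have heq : ∀ z : Fin (k + 1) × Fin (l + 1),
        τ z.1 z.2 * (log (μ z.1 * u e z.1 * W z.1 z.2 * (ν z.2 * v e z.2)) - log (τ z.1 z.2))
          = τ z.1 z.2 * log P
            + (τ z.1 z.2 * log (u e z.1) + τ z.1 z.2 * log (v e z.2)) := by
      intro z
      have h1 : log (τ z.1 z.2) = log (μ z.1) + log (ν z.2) + log (W z.1 z.2) - log P := by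
        simp only [τ]
        rw [log_div (mul_pos (mul_pos (hμ _) (hν _)) (hW _ _)).ne' hP.ne',
          log_mul (mul_pos (hμ _) (hν _)).ne' (hW _ _).ne', log_mul (hμ _).ne' (hν _).ne']
      rw [h1, log_mul (mul_pos (mul_pos (hμ _) (hu e _)) (hW _ _)).ne'
          (mul_pos (hν _) (hv e _)).ne',
        log_mul (mul_pos (hμ _) (hu e _)).ne' (hW _ _).ne', log_mul (hμ _).ne' (hu e _).ne',
        log_mul (hν _).ne' (hv e _).ne']
      ring
    rw [Fintype.sum_congr _ _ heq, sum_add_distrib, ← sum_mul, hz1, one_mul, sum_add_distrib] at hg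
    have e1 : ∑ z : Fin (k + 1) × Fin (l + 1), τ z.1 z.2 * log (u e z.1)
        = ∑ s, p s * log (u e s) := by
      simp only [Fintype.sum_prod_type, p, sum_mul]
    have e2 : ∑ z : Fin (k + 1) × Fin (l + 1), τ z.1 z.2 * log (v e z.2)
        = ∑ t, q t * log (v e t) := by
      rw [Fintype.sum_prod_type, sum_comm]
      simp only [q, sum_mul]
    rw [e1, e2] at hg
    rw [← exp_log hP, ← exp_add]
    exact (exp_le_exp.2 hg).trans (le_of_eq (exp_log (sum_pos (fun z _ => hpos z) univ_nonempty)))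
  have hU : P ^ Fintype.card E * exp (∑ e, ∑ s, p s * log (u e s))
      * exp (∑ e, ∑ t, q t * log (v e t))
      ≤ ∑ y : E → Fin (l + 1), (∑ x, G2 y x) * ∏ e, (ν (y e) * v e (y e)) := by
    have h1 := Finset.prod_le_prod (s := (univ : Finset E)) (fun e _ => (mul_pos hP (exp_pos _)).le)
      (fun e _ => hedge e)
    rw [prod_mul_distrib, prod_const, card_univ, ← exp_sum, sum_add_distrib, exp_add,
      Fintype.prod_sum, ← Equiv.sum_comp (Equiv.arrowProdEquivProdArrow E _ _).symm,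
      Fintype.sum_prod_type] at h1
    rw [← mul_assoc] at h1
    conv_rhs at h1 => rw [sum_comm]
    refine h1.trans (le_of_eq (sum_congr rfl fun y _ => ?_))
    rw [sum_mul]
    refine sum_congr rfl fun x _ => ?_
    simp only [G2, ← prod_mul_distrib]
    rfl
  have hz : ∑ z : B → Fin (l + 1), (∏ j, ν (z j)) * ∑ x, G2 (z ∘ b) x
      = ∑ x : E → Fin (k + 1), (∑ y, G1 x y) * ∏ e, (μ (x e) * u e (x e)) := by
    simp only [mul_sum, sum_mul]
    rw [sum_comm]
    refine sum_congr rfl fun x _ => sum_congr rfl fun z _ => ?_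
    simp only [G1, G2, Function.comp]
    ring
  have hZ : ∑ z : A → Fin (k + 1), (∏ i, μ (z i)) * ∑ y, G1 (z ∘ a) y
      = homSum a b μ ν W := by
    simp only [homSum, G1, mul_sum, Function.comp, mul_assoc]
  rw [hz] at hbv
  rw [hZ] at hbu
  set U := exp (∑ e, ∑ s, p s * log (u e s)) with hUdef
  set V := exp (∑ e, ∑ t, q t * log (v e t)) with hVdef
  have h3 : P ^ Fintype.card E * U * V ≤ V * (U * homSum a b μ ν W) :=
    hU.trans (hbv.trans (mul_le_mul_of_nonneg_left hbu (exp_pos _).le))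
  have hUV : 0 < U * V := mul_pos (exp_pos _) (exp_pos _)
  refine le_of_mul_le_mul_right ?_ hUV
  calc P ^ Fintype.card E * (U * V) = P ^ Fintype.card E * U * V := by ring
    _ ≤ V * (U * homSum a b μ ν W) := h3
    _ = homSum a b μ ν W * (U * V) := by ring

end Vale.P050.TP2
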