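import Mathlib
import Vale.Agent.P050.TP2.Positive

/-!
# P050: removing positivity, and matrices of rank at most two
-/

namespace Vale.P050.TP2

open Finset Real Filter Topology

/-- Smoothing matrix on a chain; it is the identity at `δ = 0`. -/
noncomputable def smooth {n : ℕ} (δ : ℝ) (s i : Fin n) : ℝ :=
  δ ^ (((s.val : ℤ) - i.val).natAbs ^ 2)

lemma smooth_pos {n : ℕ} {δ : ℝ} (hδ : 0 < δ) (s i : Fin n) : 0 < smooth δ s i := pow_pos hδ _

lemma smooth_zero {n : ℕ} (s i : Fin n) : smooth 0 s i = if s = i then 1 else 0 := by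
  by_cases h : s = i
  · simp [smooth, h]
  · have : ((s.val : ℤ) - i.val).natAbs ≠ 0 := by
      intro h'; apply h; ext; omega
    simp [smooth, h, this]

lemma smooth_lsm {n : ℕ} {δ : ℝ} (h0 : 0 < δ) (h1 : δ ≤ 1) :
    LSM2 (smooth δ : Fin n → Fin n → ℝ) := by
  intro s s' i i'
  simp only [smooth, ← pow_add]
  refine pow_le_pow_of_le_one h0.le h1 ?_
  rcases le_total s s' with h | h <;> rcases le_total i i' with h' | h' <;>
    simp only [inf_of_le_left, inf_of_le_right, sup_of_le_left, sup_of_le_right, h, h'] <;>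
    zify <;> simp only [sq_abs] <;>
    nlinarith [mul_nonneg (sub_nonneg.2 (Int.ofNat_le.2 (Fin.le_def.1 h)))
      (sub_nonneg.2 (Int.ofNat_le.2 (Fin.le_def.1 h')))]

lemma lsm2_comp {S I T : Type} [Lattice S] [DistribLattice I] [Fintype I] [Lattice T]
    {A : S → I → ℝ} {W : I → T → ℝ} (hA0 : ∀ s i, 0 ≤ A s i) (hW0 : ∀ i t, 0 ≤ W i t)
    (hA : LSM2 A) (hW : LSM2 W) : LSM2 (fun s t => ∑ i, A s i * W i t) := by
  intro s s' t t'
  have h : LSM2 (fun (q : S × T) (i : I) => A q.1 i * W i q.2) := by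
    intro q q' i i'
    simp only [Prod.fst_inf, Prod.snd_inf, Prod.fst_sup, Prod.snd_sup]
    rw [mul_mul_mul_comm, mul_mul_mul_comm (A (q.1 ⊓ q'.1) (i ⊓ i'))]
    exact mul_le_mul (hA _ _ _ _) (hW _ _ _ _) (mul_nonneg (hW0 _ _) (hW0 _ _))
      (mul_nonneg (hA0 _ _) (hA0 _ _))
  exact LSM2.sumOut (fun q i => mul_nonneg (hA0 _ _) (hW0 _ _)) h (s, t) (s', t')

/-- Smoothed weights. -/
noncomputable def mixW {k : ℕ} (δ : ℝ) (μ : Fin (k + 1) → ℝ) (s : Fin (k + 1)) : ℝ :=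
  (1 - δ) * μ s + δ / (k + 1)

lemma mixW_pos {k : ℕ} {δ : ℝ} (h0 : 0 < δ) (h1 : δ ≤ 1) {μ : Fin (k + 1) → ℝ}
    (hμ : ∀ s, 0 ≤ μ s) (s : Fin (k + 1)) : 0 < mixW δ μ s :=
  add_pos_of_nonneg_of_pos (mul_nonneg (sub_nonneg.2 h1) (hμ s)) (by positivity)

lemma mixW_sum {k : ℕ} (δ : ℝ) {μ : Fin (k + 1) → ℝ} (hμ1 : ∑ s, μ s = 1) :
    ∑ s, mixW δ μ s = 1 := by
  simp only [mixW, sum_add_distrib, ← mul_sum, hμ1, sum_const, card_univ, Fintype.card_fin,
    nsmul_eq_mul]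
  push_cast
  field_simp
  ring

/-- Smoothed kernel. -/
noncomputable def smoothW {k l : ℕ} (δ : ℝ) (W : Fin (k + 1) → Fin (l + 1) → ℝ)
    (s : Fin (k + 1)) (t : Fin (l + 1)) : ℝ :=
  ∑ j, (∑ i, smooth δ s i * W i j) * smooth δ j t

theorem chains {A B E : Type} [Fintype A] [Fintype B] [Fintype E] [DecidableEq A]
    [DecidableEq B] [DecidableEq E] {k l : ℕ} (a : E → A) (b : E → B)
    (μ : Fin (k + 1) → ℝ) (ν : Fin (l + 1) → ℝ) (W : Fin (k + 1) → Fin (l + 1) → ℝ)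
    (hμ : ∀ s, 0 ≤ μ s) (hμ1 : ∑ s, μ s = 1) (hν : ∀ t, 0 ≤ ν t) (hν1 : ∑ t, ν t = 1)
    (hW : ∀ s t, 0 ≤ W s t) (hW2 : LSM2 W) :
    (∑ s, ∑ t, μ s * ν t * W s t) ^ Fintype.card E ≤ homSum a b μ ν W := by
  by_cases h0 : ∃ i j, 0 < W i j
  · obtain ⟨i0, j0, hij⟩ := h0
    have key : ∀ δ ∈ Set.Ioo (0 : ℝ) 1,
        (∑ s, ∑ t, mixW δ μ s * mixW δ ν t * smoothW δ W s t) ^ Fintype.card E
          ≤ homSum a b (mixW δ μ) (mixW δ ν) (smoothW δ W) := by
      intro δ hδ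
      have hA0 : ∀ (n : ℕ) (s i : Fin n), 0 ≤ smooth δ s i := fun n s i =>
        (smooth_pos hδ.1 s i).le
      refine positive a b _ _ _ (mixW_pos hδ.1 hδ.2.le hμ) (mixW_sum δ hμ1)
        (mixW_pos hδ.1 hδ.2.le hν) (mixW_sum δ hν1) (fun s t => ?_) ?_
      · refine sum_pos' (fun j _ => mul_nonneg (sum_nonneg fun i _ =>
          mul_nonneg (hA0 _ _ _) (hW _ _)) (hA0 _ _ _)) ⟨j0, mem_univ _, ?_⟩
        refine mul_pos (sum_pos' (fun i _ => mul_nonneg (hA0 _ _ _) (hW _ _))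
          ⟨i0, mem_univ _, mul_pos (smooth_pos hδ.1 _ _) hij⟩) (smooth_pos hδ.1 _ _)
      · exact lsm2_comp (fun s j => sum_nonneg fun i _ => mul_nonneg (hA0 _ _ _) (hW _ _))
          (hA0 _) (lsm2_comp (hA0 _) hW (smooth_lsm hδ.1 hδ.2.le) hW2)
          (smooth_lsm hδ.1 hδ.2.le)
    have hc : Continuous fun δ : ℝ =>
        homSum a b (mixW δ μ) (mixW δ ν) (smoothW δ W)
          - (∑ s, ∑ t, mixW δ μ s * mixW δ ν t * smoothW δ W s t) ^ Fintype.card E := by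
      unfold homSum mixW smoothW smooth
      fun_prop
    have ht : Tendsto (fun δ : ℝ => homSum a b (mixW δ μ) (mixW δ ν) (smoothW δ W)
          - (∑ s, ∑ t, mixW δ μ s * mixW δ ν t * smoothW δ W s t) ^ Fintype.card E)
        (𝓝[>] 0) (𝓝 (homSum a b μ ν W
          - (∑ s, ∑ t, μ s * ν t * W s t) ^ Fintype.card E)) := by
      have := (hc.tendsto 0).mono_left (nhdsWithin_le_nhds (s := Set.Ioi (0 : ℝ)))
      have e1 : ∀ {n : ℕ} (f : Fin (n + 1) → ℝ), mixW 0 f = f := by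
        intro n f; funext s; simp [mixW]
      have e2 : smoothW 0 W = W := by
        funext s t; simp [smoothW, smooth_zero]
      simpa only [e1, e2] using this
    have : 0 ≤ homSum a b μ ν W - (∑ s, ∑ t, μ s * ν t * W s t) ^ Fintype.card E := by
      refine ge_of_tendsto ht ?_
      filter_upwards [Ioo_mem_nhdsGT (one_pos : (0 : ℝ) < 1)] with δ hδ
      exact sub_nonneg.2 (key δ hδ)
    linarith
  · push Not at h0
    have hz : ∀ s t, W s t = 0 := fun s t => le_antisymm (h0 s t) (hW s t)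
    rcases Nat.eq_zero_or_pos (Fintype.card E) with hE | hE
    · have : IsEmpty E := Fintype.card_eq_zero_iff.1 hE
      simp only [hE, pow_zero, homSum, univ_eq_empty, prod_empty, mul_one]
      simp only [← mul_sum, ← Fintype.prod_sum (fun _ : B => ν), hν1, prod_const_one, mul_one,
        ← Fintype.prod_sum (fun _ : A => μ), hμ1, le_refl]
    · have : Nonempty E := Fintype.card_pos_iff.1 hE
      simp [hz, hE.ne', homSum]

end Vale.P050.TP2
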