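import Mathlib
import Vale.Agent.P050.TP2.Limit

/-!
# P050: general finite chains and matrices of rank at most two
-/

namespace Vale.P050.TP2

open Finset

/-- `W` is totally positive of order two after some enumeration of its rows and of its columns. -/
def TP2Orderable {S T : Type} [Fintype S] [Fintype T] (W : S → T → ℝ) : Prop :=
  ∃ (eS : Fin (Fintype.card S) ≃ S) (eT : Fin (Fintype.card T) ≃ T),
    ∀ i i' j j', i ≤ i' → j ≤ j' →
      W (eS i) (eT j') * W (eS i') (eT j) ≤ W (eS i) (eT j) * W (eS i') (eT j')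

lemma lsm2_of_minors {a b : ℕ} {W : Fin a → Fin b → ℝ}
    (h : ∀ i i' j j', i ≤ i' → j ≤ j' → W i j' * W i' j ≤ W i j * W i' j') : LSM2 W := by
  intro i i' j j'
  rcases le_total i i' with hi | hi <;> rcases le_total j j' with hj | hj <;>
    simp only [inf_of_le_left, inf_of_le_right, sup_of_le_left, sup_of_le_right, hi, hj]
  · exact le_rfl
  · exact h i i' j' j hi hj
  · linarith [h i' i j j' hi hj]
  · exact le_of_eq (mul_comm _ _)

theorem orderable_sidorenko {A B E S T : Type} [Fintype A] [Fintype B] [Fintype E]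
    [DecidableEq A] [DecidableEq B] [DecidableEq E] [Fintype S] [Fintype T]
    (a : E → A) (b : E → B) (μ : S → ℝ) (ν : T → ℝ) (W : S → T → ℝ)
    (hμ : ∀ s, 0 ≤ μ s) (hμ1 : ∑ s, μ s = 1) (hν : ∀ t, 0 ≤ ν t) (hν1 : ∑ t, ν t = 1)
    (hW : ∀ s t, 0 ≤ W s t) (hW2 : TP2Orderable W) :
    (∑ s, ∑ t, μ s * ν t * W s t) ^ Fintype.card E ≤ homSum a b μ ν W := by
  classical
  obtain ⟨eS, eT, h⟩ := hW2
  have hS : 0 < Fintype.card S := by
    by_contra h'
    have : IsEmpty S := Fintype.card_eq_zero_iff.1 (by omega)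
    simp at hμ1
  have hT : 0 < Fintype.card T := by
    by_contra h'
    have : IsEmpty T := Fintype.card_eq_zero_iff.1 (by omega)
    simp at hν1
  obtain ⟨k, hk⟩ := Nat.exists_eq_succ_of_ne_zero hS.ne'
  obtain ⟨l, hl⟩ := Nat.exists_eq_succ_of_ne_zero hT.ne'
  let fS : Fin (k + 1) ≃ S := (finCongr hk.symm).trans eS
  let fT : Fin (l + 1) ≃ T := (finCongr hl.symm).trans eT
  have hm : LSM2 fun i j => W (fS i) (fT j) :=
    lsm2_of_minors fun i i' j j' hi hj => h (finCongr hk.symm i) (finCongr hk.symm i')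
      (finCongr hl.symm j) (finCongr hl.symm j') hi hj
  have := chains a b (fun i => μ (fS i)) (fun j => ν (fT j)) (fun i j => W (fS i) (fT j))
    (fun i => hμ _) (by rw [Equiv.sum_comp fS μ]; exact hμ1) (fun j => hν _)
    (by rw [Equiv.sum_comp fT ν]; exact hν1) (fun i j => hW _ _) hm
  convert this using 1
  · congr 1
    rw [← Equiv.sum_comp fS]
    exact sum_congr rfl fun i _ => (Equiv.sum_comp fT _).symm
  · simp only [homSum]
    rw [← Equiv.sum_comp (Equiv.arrowCongr (Equiv.refl A) fS)]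
    refine sum_congr rfl fun x _ => ?_
    rw [← Equiv.sum_comp (Equiv.arrowCongr (Equiv.refl B) fT)]
    rfl

lemma exists_sorted {S : Type} [Fintype S] (key : S → ℝ) :
    ∃ e : Fin (Fintype.card S) ≃ S, ∀ i j, i ≤ j → key (e i) ≤ key (e j) := by
  let e0 := (Fintype.equivFin S).symm
  exact ⟨(Tuple.sort (key ∘ e0)).trans e0, fun i j hij => Tuple.monotone_sort (key ∘ e0) hij⟩

lemma exists_det_order {S : Type} [Fintype S] (a b : S → ℝ) (ha : ∀ s, 0 ≤ a s)
    (hb : ∀ s, 0 ≤ b s) :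
    ∃ e : Fin (Fintype.card S) ≃ S, ∀ i j, i ≤ j → a (e i) * b (e j) ≤ a (e j) * b (e i) := by
  obtain ⟨e, he⟩ := exists_sorted fun s => a s / (a s + b s)
  refine ⟨e, fun i j hij => ?_⟩
  rcases (add_nonneg (ha (e i)) (hb (e i))).eq_or_lt with h | h
  · have h1 : a (e i) = 0 := by linarith [ha (e i), hb (e i)]
    have h2 : b (e i) = 0 := by linarith [ha (e i), hb (e i)]
    simp [h1, h2]
  rcases (add_nonneg (ha (e j)) (hb (e j))).eq_or_lt with h' | h'
  · have h1 : a (e j) = 0 := by linarith [ha (e j), hb (e j)]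
    have h2 : b (e j) = 0 := by linarith [ha (e j), hb (e j)]
    simp [h1, h2]
  have := (div_le_div_iff₀ h h').1 (he i j hij)
  linarith

theorem orderable_of_rankTwo {S T : Type} [Fintype S] [Fintype T] (W : S → T → ℝ)
    (hW : ∀ s t, 0 ≤ W s t) (f₁ f₂ : S → ℝ) (g₁ g₂ : T → ℝ)
    (h : ∀ s t, W s t = f₁ s * g₁ t + f₂ s * g₂ t) : TP2Orderable W := by
  classical
  by_cases hK : ∃ i₁ i₂ j₁ j₂, W i₁ j₂ * W i₂ j₁ < W i₁ j₁ * W i₂ j₂
  · obtain ⟨i₁, i₂, j₁, j₂, hK⟩ := hK
    obtain ⟨eS, hS⟩ := exists_det_order (fun s => W s j₁) (fun s => W s j₂)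
      (fun s => hW s _) (fun s => hW s _)
    obtain ⟨eT, hT⟩ := exists_det_order (fun t => W i₁ t) (fun t => W i₂ t)
      (fun t => hW _ t) (fun t => hW _ t)
    refine ⟨eS, eT, fun i i' j j' hi hj => ?_⟩
    have hs := hS i i' hi
    have ht := hT j j' hj
    have hid : (W (eS i) (eT j) * W (eS i') (eT j') - W (eS i) (eT j') * W (eS i') (eT j))
          * (W i₁ j₁ * W i₂ j₂ - W i₁ j₂ * W i₂ j₁)
        = (W (eS i) j₁ * W (eS i') j₂ - W (eS i') j₁ * W (eS i) j₂)
          * (W i₁ (eT j) * W i₂ (eT j') - W i₁ (eT j') * W i₂ (eT j)) := by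
      simp only [h]; ring
    have hp : 0 ≤ (W (eS i) j₁ * W (eS i') j₂ - W (eS i') j₁ * W (eS i) j₂)
        * (W i₁ (eT j) * W i₂ (eT j') - W i₁ (eT j') * W i₂ (eT j)) :=
      mul_nonneg_of_nonpos_of_nonpos (by linarith) (by linarith)
    rw [← hid] at hp
    have := nonneg_of_mul_nonneg_left hp (sub_pos.2 hK)
    linarith
  · push Not at hK
    refine ⟨(Fintype.equivFin S).symm, (Fintype.equivFin T).symm, fun i i' j j' _ _ => ?_⟩
    exact hK _ _ _ _

end Vale.P050.TP2
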