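import Mathlib
import Vale.Agent.P050.TP2.Orders

/-!
# P050: translation to simple bipartite graphs and symmetric targets
-/

namespace Vale.P050.TP2

open Finset

theorem graph_sidorenko {V S : Type} [Fintype V] [DecidableEq V] [Fintype S]
    (H : SimpleGraph V) [DecidableRel H.Adj] (c : V → Bool)
    (hc : ∀ u v, H.Adj u v → c u ≠ c v) (μ : S → ℝ) (W : S → S → ℝ)
    (hμ : ∀ s, 0 ≤ μ s) (hμ1 : ∑ s, μ s = 1) (hW : ∀ s t, 0 ≤ W s t)
    (hsym : ∀ s t, W s t = W t s) (hW2 : TP2Orderable W) :
    (∑ s, ∑ t, μ s * μ t * W s t) ^ H.edgeFinset.card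
      ≤ ∑ x : V → S, (∏ v, μ (x v)) *
          ∏ e ∈ H.edgeFinset,
            Sym2.lift ⟨fun u v => W (x u) (x v), fun u v => hsym (x u) (x v)⟩ e := by
  classical
  let E := {p : {v // c v = true} × {v // ¬ c v = true} // H.Adj p.1.val p.2.val}
  let f : E → Sym2 V := fun p => s(p.val.1.val, p.val.2.val)
  have hf : Function.Injective f := by
    rintro ⟨⟨u, v⟩, _⟩ ⟨⟨u', v'⟩, _⟩ h
    simp only [f, Sym2.eq_iff] at h
    rcases h with ⟨h1, h2⟩ | ⟨h1, _⟩
    · exact Subtype.ext (Prod.ext (Subtype.ext h1) (Subtype.ext h2))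
    · exact absurd (h1 ▸ u.2) v'.2
  have himg : H.edgeFinset = univ.image f := by
    ext e
    induction e using Sym2.ind with
    | _ u v =>
      simp only [SimpleGraph.mem_edgeFinset, SimpleGraph.mem_edgeSet, mem_image, mem_univ,
        true_and]
      constructor
      · intro h
        by_cases hu : c u = true
        · exact ⟨⟨(⟨u, hu⟩, ⟨v, fun hv => hc u v h (hu.trans hv.symm)⟩), h⟩, rfl⟩
        · have hv : c v = true := by
            have := hc u v h
            cases hcu : c u <;> cases hcv : c v <;> simp_all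
          exact ⟨⟨(⟨v, hv⟩, ⟨u, hu⟩), h.symm⟩, Sym2.eq_swap⟩
      · rintro ⟨⟨⟨a, b⟩, hab⟩, h⟩
        simp only [f, Sym2.eq_iff] at h
        rcases h with ⟨h1, h2⟩ | ⟨h1, h2⟩
        · subst h1; subst h2; exact hab
        · subst h1; subst h2; exact hab.symm
  have hcard : H.edgeFinset.card = Fintype.card E := by
    rw [himg, card_image_of_injective _ hf, card_univ]
  have := orderable_sidorenko (E := E) (fun p => p.val.1) (fun p => p.val.2) μ μ W
    hμ hμ1 hμ hμ1 hW hW2
  rw [hcard]
  refine this.trans (le_of_eq ?_)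
  simp only [homSum, ← Fintype.sum_prod_type']
  rw [← Equiv.sum_comp (Equiv.piEquivPiSubtypeProd (fun v => c v = true) (fun _ => S))]
  refine sum_congr rfl fun x _ => ?_
  rw [himg, prod_image hf.injOn,
    ← Fintype.prod_subtype_mul_prod_subtype (fun v => c v = true) (fun v => μ (x v))]
  simp [f, Equiv.piEquivPiSubtypeProd]

end Vale.P050.TP2
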